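import Vale.Agent.P253.R2.H618.Exh2

/-! P253Z, block SUP: four point sums with a rotating direction. -/

open scoped Manifold ContDiff Topology Bundle
open Set Metric Complex Filter Bundle IsManifold Asymptotics

set_option maxSynthPendingDepth 3
set_option linter.unusedSectionVars false

noncomputable section

namespace Vale.Agent.P253Z.Sup

open Vale.Agent.P253.Mfd Vale.Agent.P253.Mfd.LocalKahler Vale.Agent.P253.R2.H618
open Vale.Agent.P253.R2

section taylor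

variable {F : Type*} [NormedAddCommGroup F] [NormedSpace ℂ F] [FiniteDimensional ℂ F]

/-- four point sums of a real function of class `C²`, for a bounded family of directions -/
theorem four_taylor_rot {V : Set F} (hV : IsOpen V) {q : F → ℝ} (hq : ContDiffOn ℝ 2 q V) {z : F}
    (hz : z ∈ V) {Y : ℝ → F} {B : ℝ} (hY : ∀ r, ‖Y r‖ ≤ B) {ξ : ℝ → Fin 4 → F} (hξ : IsSmall ξ) :
    (fun r : ℝ => ∑ k : Fin 4, q (z + (r • (I ^ (k:ℕ) • Y r) + ξ r k)) - 4 * q z
      - r ^ 2 * (fderiv ℝ (fderiv ℝ q) z (Y r) (Y r) +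
        fderiv ℝ (fderiv ℝ q) z (I • Y r) (I • Y r)))
      =o[𝓝[>] (0:ℝ)] (fun r => r ^ 2) := by
  obtain ⟨hO, ho⟩ := isSmall_iff.1 hξ
  set T := fderiv ℝ q z with hT
  set Q := fderiv ℝ (fderiv ℝ q) z with hQ
  have htay : (fun h : F => q (z + h) - q z - T h - (2⁻¹ : ℝ) • Q h h) =o[𝓝 0]
      (fun h => ‖h‖ ^ 2) := by
    rw [isLittleO_iff]
    intro c hc
    obtain ⟨δ, hδ, H⟩ := uniform_taylor_vec hV (isCompact_singleton (x := z))
      (singleton_subset_iff.2 hz) hq hc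
    filter_upwards [closedBall_mem_nhds (0:F) hδ] with h hh
    have := (H z rfl h (by simpa using hh)).2
    rwa [Real.norm_of_nonneg (show 0 ≤ ‖h‖ ^ 2 by positivity)]
  set h : Fin 4 → ℝ → F := fun k r => r • (I ^ (k:ℕ) • Y r) + ξ r k with hh
  have hid : (fun r : ℝ => r) =o[𝓝[>] (0:ℝ)] (fun _ => (1:ℝ)) := by
    rw [isLittleO_one_iff]
    exact tendsto_id.mono_left nhdsWithin_le_nhds
  have hr2 : (fun r : ℝ => r ^ 2) =O[𝓝[>] (0:ℝ)] (fun r => r) := by
    have := (isBigO_refl (fun r : ℝ => r) (𝓝[>] (0:ℝ))).mul hid.isBigO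
    simpa [sq] using this
  have hr3 : (fun r : ℝ => r * r ^ 2) =o[𝓝[>] (0:ℝ)] (fun r => r ^ 2) := by
    have := hid.mul_isBigO (isBigO_refl (fun r : ℝ => r ^ 2) (𝓝[>] (0:ℝ)))
    simpa using this
  have hlin : ∀ k : Fin 4,
      (fun r : ℝ => r • (I ^ (k:ℕ) • Y r)) =O[𝓝[>] (0:ℝ)] (fun r => r) := by
    intro k
    refine IsBigO.of_bound B (Eventually.of_forall fun r => ?_)
    rw [norm_smul, LocalKahler.norm_I_pow_smul, mul_comm]
    exact mul_le_mul_of_nonneg_right (hY r) (norm_nonneg _)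
  have hhO : ∀ k, h k =O[𝓝[>] (0:ℝ)] (fun r => r) := fun k =>
    (hlin k).add ((hO k).trans hr2)
  have hht : ∀ k, Tendsto (h k) (𝓝[>] (0:ℝ)) (𝓝 0) := by
    intro k
    rw [← isLittleO_one_iff ℝ]
    exact (hhO k).trans_isLittleO hid
  have hrem : ∀ k, (fun r => q (z + h k r) - q z - T (h k r) - (2⁻¹ : ℝ) • Q (h k r) (h k r))
      =o[𝓝[>] (0:ℝ)] (fun r => r ^ 2) := by
    intro k
    have h1 := htay.comp_tendsto (hht k)
    refine h1.trans_isBigO ?_
    have := ((hhO k).norm_left).pow 2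
    exact this
  have hBil : ∀ (u v : ℝ → F) (f g : ℝ → ℝ), u =O[𝓝[>] (0:ℝ)] f → v =O[𝓝[>] (0:ℝ)] g →
      (fun r => Q (u r) (v r)) =O[𝓝[>] (0:ℝ)] (fun r => f r * g r) := by
    intro u v f g hu hv
    have h1 : (fun r => Q (u r) (v r)) =O[𝓝[>] (0:ℝ)] (fun r => ‖u r‖ * ‖v r‖) := by
      refine IsBigO.of_bound ‖Q‖ (Eventually.of_forall fun r => ?_)
      rw [Real.norm_of_nonneg (show 0 ≤ ‖u r‖ * ‖v r‖ by positivity), ← mul_assoc]
      exact Q.le_opNorm₂ _ _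
    exact h1.trans (hu.norm_left.mul hv.norm_left)
  have hquad : ∀ (r : ℝ) (y : F), ∑ k : Fin 4, Q (r • (I ^ (k:ℕ) • y)) (r • (I ^ (k:ℕ) • y)) =
      2 * (r ^ 2 * (Q y y + Q (I • y) (I • y))) := by
    intro r y
    rw [Fin.sum_univ_four]
    have h3 : (I : ℂ) ^ 3 = -I := by rw [pow_succ, I_sq]; ring
    simp only [Fin.val_zero, Fin.val_one, Fin.val_two, pow_zero, pow_one, I_sq,
      show ((3 : Fin 4) : ℕ) = 3 from rfl, h3, neg_smul, one_smul, map_smul, map_neg,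
      smul_apply, neg_apply, smul_neg, smul_eq_mul]
    ring
  have hdec : ∀ r : ℝ, ∑ k : Fin 4, q (z + (r • (I ^ (k:ℕ) • Y r) + ξ r k)) - 4 * q z
      - r ^ 2 * (Q (Y r) (Y r) + Q (I • Y r) (I • Y r)) =
      (T (∑ k, ξ r k) + (2⁻¹ : ℝ) * ∑ k : Fin 4,
          (Q (r • (I ^ (k:ℕ) • Y r)) (ξ r k) + (Q (ξ r k) (r • (I ^ (k:ℕ) • Y r))
            + Q (ξ r k) (ξ r k))))
        + ∑ k, (q (z + h k r) - q z - T (h k r) - (2⁻¹ : ℝ) • Q (h k r) (h k r)) := by
    intro r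
    have e1 : ∀ k : Fin 4, q (z + (r • (I ^ (k:ℕ) • Y r) + ξ r k)) =
        (q (z + h k r) - q z - T (h k r)
        - (2⁻¹ : ℝ) • Q (h k r) (h k r)) + q z + T (r • (I ^ (k:ℕ) • Y r)) + T (ξ r k)
        + (2⁻¹ : ℝ) * (Q (r • (I ^ (k:ℕ) • Y r)) (r • (I ^ (k:ℕ) • Y r)))
        + (2⁻¹ : ℝ) * (Q (r • (I ^ (k:ℕ) • Y r)) (ξ r k) + (Q (ξ r k) (r • (I ^ (k:ℕ) • Y r))
            + Q (ξ r k) (ξ r k))) := by
      intro k
      simp only [hh, map_add, add_apply, smul_eq_mul]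
      ring
    have e2 : ∑ k : Fin 4, T (r • (I ^ (k:ℕ) • Y r)) = 0 := by
      rw [← map_sum, ← Finset.smul_sum, Vale.Agent.P253.Mfd.sum_I_pow_smul, smul_zero, map_zero]
    simp only [e1, Finset.sum_add_distrib, e2, ← Finset.mul_sum, hquad, map_sum]
    simp only [Finset.sum_const, Finset.card_univ, Fintype.card_fin, nsmul_eq_mul]
    push_cast
    ring
  simp only [hdec]
  refine (IsLittleO.add ?_ ?_).add (IsLittleO.fun_sum fun k _ => hrem k)
  · exact (T.isBigO_comp _ _).trans_isLittleO ho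
  · refine IsLittleO.const_mul_left (IsLittleO.fun_sum fun k _ => ?_) _
    refine IsLittleO.add ?_ (IsLittleO.add ?_ ?_)
    · exact (hBil _ _ _ _ (hlin k) (hO k)).trans_isLittleO hr3
    · have := hBil _ _ _ _ (hO k) (hlin k)
      refine this.trans_isLittleO ?_
      simpa [mul_comm] using hr3
    · have := hBil _ _ _ _ (hO k) ((hO k).trans hr2)
      refine this.trans_isLittleO ?_
      simpa [mul_comm] using hr3

end taylor

/-- the four points -/
def pt (z₀ : ℂ) (w : ℝ → ℂ) (r : ℝ) (k : Fin 4) : ℂ := z₀ + r • (I ^ (k:ℕ) • (w r • (1:ℂ)))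

theorem norm_pt {z₀ : ℂ} {w : ℝ → ℂ} (hw : ∀ r, ‖w r‖ = 1) {r : ℝ} (hr : 0 ≤ r) (k : Fin 4) :
    ‖pt z₀ w r k - z₀‖ = r := by
  rw [pt, add_sub_cancel_left, norm_smul, LocalKahler.norm_I_pow_smul, norm_smul, hw, norm_one,
    Real.norm_of_nonneg hr]
  ring

theorem tendsto_pt (z₀ : ℂ) {w : ℝ → ℂ} (hw : ∀ r, ‖w r‖ = 1) (k : Fin 4) :
    Tendsto (fun r => pt z₀ w r k) (𝓝[>] (0:ℝ)) (𝓝 z₀) := by
  rw [tendsto_iff_norm_sub_tendsto_zero]
  refine (tendsto_id.mono_left (nhdsWithin_le_nhds (s := Ioi (0:ℝ)))).congr' ?_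
  filter_upwards [self_mem_nhdsWithin] with r hr
  exact (norm_pt hw (le_of_lt hr) k).symm

/-- four point sums of polynomials -/
theorem four_poly_rot (p : Polynomial ℂ) (z₀ : ℂ) {w : ℝ → ℂ} (hw : ∀ r, ‖w r‖ = 1) {η : ℝ}
    (hη : 0 < η) :
    ∀ᶠ r in 𝓝[>] (0:ℝ), ∑ k : Fin 4, (p.eval (pt z₀ w r k)).re ≤
      4 * (p.eval z₀).re + η * r ^ 2 := by
  have h1 := isSmall_mapW (E := ℂ) isOpen_univ (τ := fun z => p.eval z)
    p.differentiable.differentiableOn (mem_univ z₀) (1:ℂ) hw (isSmall_zero (E := ℂ))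
  obtain ⟨-, ho⟩ := isSmall_iff.1 h1
  have h2 := ho.def hη
  filter_upwards [h2] with r hr
  rw [Finset.sum_sub_distrib, Finset.sum_sub_distrib, ← Finset.smul_sum,
    Vale.Agent.P253.Mfd.sum_I_pow_smul, smul_zero, sub_zero] at hr
  simp only [add_zero, Finset.sum_const, Finset.card_univ, Fintype.card_fin,
    nsmul_eq_mul] at hr
  rw [Real.norm_of_nonneg (show 0 ≤ r ^ 2 by positivity)] at hr
  have h3 := (Complex.abs_re_le_norm _).trans hr
  have h4 := (abs_le.1 h3).2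
  rw [sub_re, re_sum] at h4
  have h5 : (((4:ℕ):ℂ) * Polynomial.eval z₀ p).re = 4 * (Polynomial.eval z₀ p).re := by
    simp
  rw [h5] at h4
  unfold pt
  linarith

/-- four point sums and the sub-mean value inequality -/
theorem four_submean_rot {u : ℂ → ℝ} {c : ℂ} {R : ℝ} (hR : 0 < R)
    (hu : ContinuousOn u (closedBall c R))
    (h : ∀ z₀ ∈ ball c R, ∃ w : ℝ → ℂ, (∀ r, ‖w r‖ = 1) ∧ ∀ η > 0, ∀ᶠ r in 𝓝[>] (0:ℝ),
      4 * u z₀ - η * r ^ 2 ≤ ∑ k : Fin 4, u (pt z₀ w r k)) :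
    u c ≤ Real.circleAverage u c R := by
  by_contra hcon
  push Not at hcon
  obtain ⟨p, h1, h2⟩ := H380.exists_poly_majorant hR (hu.mono sphere_subset_closedBall) hcon
  obtain ⟨k, ε, z0, hε, hz0, hk0, hk⟩ := H380.touch_of_majorant
    (u := fun z => ((u z : ℝ) : EReal)) (c := c) (r := R)
    (continuous_coe_real_ereal.comp_continuousOn hu).upperSemicontinuousOn
    (fun z _ => EReal.coe_ne_top _) p (fun z hz => by exact_mod_cast (h1 z hz).le)
    (mem_ball_self hR) (by exact_mod_cast h2)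
  have hk0' : u z0 = (k.eval z0).re := by exact_mod_cast hk0
  have hk' : ∀ z ∈ closedBall c R, u z ≤ (k.eval z).re - ε * ‖z - z0‖ ^ 2 := fun z hz => by
    exact_mod_cast hk z hz
  obtain ⟨w, hw, h3⟩ := h z0 hz0
  have h4 : ∀ᶠ r in 𝓝[>] (0:ℝ), ∀ j, pt z0 w r j ∈ ball c R :=
    eventually_all.2 fun j => (tendsto_pt z0 hw j).eventually (isOpen_ball.mem_nhds hz0)
  obtain ⟨r, hr1, hr2, hr3, hr4⟩ := ((h3 ε hε).and ((four_poly_rot k z0 hw hε).and
    (h4.and self_mem_nhdsWithin))).exists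
  have hr0 : 0 < r := hr4
  have h5 : ∑ j : Fin 4, u (pt z0 w r j) ≤
      ∑ j : Fin 4, ((k.eval (pt z0 w r j)).re - ε * r ^ 2) := by
    refine Finset.sum_le_sum fun j _ => ?_
    have h7 := hk' _ (ball_subset_closedBall (hr3 j))
    rwa [norm_pt hw hr0.le] at h7
  rw [Finset.sum_sub_distrib] at h5
  simp only [Finset.sum_const, Finset.card_univ, Fintype.card_fin, nsmul_eq_mul] at h5
  push_cast at h5
  have h8 : 0 < ε * r ^ 2 := by positivity
  rw [hk0'] at hr1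
  linarith

/-- a good direction for a function with the sub-mean value inequality -/
theorem exists_dir {u : ℂ → ℝ} {c : ℂ} {r : ℝ} (hr : 0 < r) (hu : ContinuousOn u (sphere c r))
    (h : u c ≤ Real.circleAverage u c r) :
    ∃ w : ℂ, ‖w‖ = 1 ∧ 4 * u c ≤ ∑ k : Fin 4, u (c + r • (I ^ (k:ℕ) • (w • (1:ℂ)))) := by
  by_contra hcon
  push Not at hcon
  have hmem : ∀ θ : ℝ, circleMap c r θ ∈ sphere c r := fun θ => circleMap_mem_sphere c hr.le θ
  have hc : Continuous fun θ : ℝ => u (circleMap c r θ) :=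
    hu.comp_continuous (continuous_circleMap c r) hmem
  have hsh : ∀ (θ : ℝ) (k : Fin 4), circleMap c r (θ + (k:ℕ) * (Real.pi / 2)) =
      c + r • (I ^ (k:ℕ) • (exp (θ * I) • (1:ℂ))) := by
    intro θ k
    have h1 : exp (((k:ℕ) : ℂ) * (Real.pi / 2 * I)) = I ^ (k:ℕ) := by
      rw [exp_nat_mul, exp_pi_div_two_mul_I]
    rw [circleMap, ← h1]
    simp only [smul_eq_mul, mul_one, real_smul, ← exp_add]
    push_cast
    congr 3
    ring
  have hck : ∀ k : Fin 4, Continuous fun θ : ℝ => u (circleMap c r (θ + (k:ℕ) * (Real.pi / 2))) :=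
    fun k => hc.comp (continuous_id.add continuous_const)
  have h1 : ∫ θ in (0:ℝ)..2 * Real.pi, ∑ k : Fin 4, u (circleMap c r (θ + (k:ℕ) * (Real.pi / 2))) <
      ∫ _ in (0:ℝ)..2 * Real.pi, 4 * u c := by
    refine intervalIntegral.integral_lt_integral_of_continuousOn_of_le_of_exists_lt
      Real.two_pi_pos (continuous_finsetSum _ fun k _ => hck k).continuousOn continuousOn_const
      (fun θ _ => ?_) ⟨0, ⟨le_rfl, Real.two_pi_pos.le⟩, ?_⟩
    · simp only [hsh]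
      exact (hcon _ (norm_exp_ofReal_mul_I θ)).le
    · simp only [hsh]
      exact hcon _ (norm_exp_ofReal_mul_I 0)
  rw [intervalIntegral.integral_finsetSum fun k _ => (hck k).intervalIntegrable _ _] at h1
  have h2 : ∀ k : Fin 4, 2 * Real.pi * u c ≤
      ∫ θ in (0:ℝ)..2 * Real.pi, u (circleMap c r (θ + (k:ℕ) * (Real.pi / 2))) := by
    intro k
    have h3 := Real.circleAverage_eq_integral_add (f := u) (c := c) (R := r)
      ((k:ℕ) * (Real.pi / 2))
    rw [h3, smul_eq_mul, le_inv_mul_iff₀ Real.two_pi_pos] at h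
    exact h
  have h4 := Finset.sum_le_sum fun k (_ : k ∈ Finset.univ) => h2 k
  simp only [Finset.sum_const, Finset.card_univ, Fintype.card_fin, nsmul_eq_mul,
    intervalIntegral.integral_const, smul_eq_mul, sub_zero] at h1 h4
  push_cast at h4
  linarith

variable {E : Type*} [NormedAddCommGroup E] [NormedSpace ℂ E] [FiniteDimensional ℂ E]
  {M : Type*} [MetricSpace M] [ChartedSpace E M] [IsManifold 𝓘(ℂ, E) 1 M]

/-- the four points of a holomorphic disc -/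
theorem harmW_disc_rot {f : ℂ → M} {U : Set ℂ} (hU : IsOpen U)
    (hf : MDifferentiableOn 𝓘(ℂ, ℂ) 𝓘(ℂ, E) f U) {z₀ : ℂ} (hz : z₀ ∈ U)
    {e : OpenPartialHomeomorph M E} (he : e ∈ maximalAtlas 𝓘(ℂ, E) 1 M) (hs : f z₀ ∈ e.source)
    {w : ℝ → ℂ} (hw : ∀ r, ‖w r‖ = 1) :
    HarmW e (f z₀) (fderiv ℝ (fun z => e (f z)) z₀ 1) w (fun r k => f (pt z₀ w r k)) := by
  have hcont : ContinuousOn f U := hf.continuousOn
  have hV : IsOpen (U ∩ f ⁻¹' e.source) := hcont.isOpen_inter_preimage hU e.open_source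
  have hzV : z₀ ∈ U ∩ f ⁻¹' e.source := ⟨hz, hs⟩
  have hd : DifferentiableOn ℂ (fun z => e (f z)) (U ∩ f ⁻¹' e.source) := by
    intro z hz
    have h1 : MDifferentiableAt 𝓘(ℂ, E) 𝓘(ℂ, E) e (f z) :=
      ((contMDiffOn_of_mem_maximalAtlas he).contMDiffAt
        (e.open_source.mem_nhds hz.2)).mdifferentiableAt (by simp)
    have h2 : MDifferentiableAt 𝓘(ℂ, ℂ) 𝓘(ℂ, E) f z :=
      (hf z hz.1).mdifferentiableAt (hU.mem_nhds hz.1)
    exact (h1.comp z h2).differentiableAt.differentiableWithinAt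
  have h1 := isSmall_mapW hV hd hzV (1:ℂ) hw (isSmall_zero (E := ℂ))
  refine ⟨eventually_all.2 fun k => ?_, h1.congr (Eventually.of_forall fun r k => ?_)⟩
  · exact ((tendsto_pt z₀ hw k).eventually (hV.mem_nhds hzV)).mono fun r hr => hr.2
  · simp only [add_zero, pt]

end Vale.Agent.P253Z.Sup
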