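import Vale.Agent.P253Z.SUP.Var
import Vale.Agent.P253Z.SUP.Four
import Vale.Agent.P253.R2.H451.GenDefs

/-! P253Z, block SUP: lower bounds for the Levi form along discs, and their transport. -/

open scoped Manifold ContDiff Topology Bundle
open Set Metric Complex Filter Bundle IsManifold Asymptotics

set_option maxSynthPendingDepth 3
set_option linter.unusedSectionVars false

noncomputable section

namespace Vale.Agent.P253Z.Sup

open Vale.Agent.P253.Mfd Vale.Agent.P253.Mfd.LocalKahler Vale.Agent.P253.R2.H618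
open Vale.Agent.P253.R2.H451 (ContPsh WeakLevi levi2)

variable {E : Type*} [NormedAddCommGroup E] [NormedSpace ℂ E] [FiniteDimensional ℂ E]
  {M : Type*} [MetricSpace M] [ChartedSpace E M]
  [IsManifold 𝓘(ℂ, E) 1 M] [IsManifold 𝓘(ℝ, E) ∞ M]
  [RiemannianBundle (fun x : M => TangentSpace 𝓘(ℝ, E) x)]

variable (E) in
/-- the Levi form of `u` at `x` is at least `c` times the metric along all holomorphic discs, for
four point sums in a suitable direction -/
def DiscW (u : M → ℝ) (x : M) (c : ℝ) : Prop :=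
  ∀ e ∈ maximalAtlas 𝓘(ℂ, E) 1 M, x ∈ e.source → ∀ (Y : E) (f : ℂ → M) (U : Set ℂ) (z₀ : ℂ),
    IsOpen U → z₀ ∈ U → MDifferentiableOn 𝓘(ℂ, ℂ) 𝓘(ℂ, E) f U → f z₀ = x →
    (∀ w : ℝ → ℂ, (∀ r, ‖w r‖ = 1) → HarmW e x Y w (fun r k => f (pt z₀ w r k))) →
    ∃ w : ℝ → ℂ, (∀ r, ‖w r‖ = 1) ∧ ∀ η > 0, ∀ᶠ r in 𝓝[>] (0:ℝ),
      4 * u x + r ^ 2 * (4 * c * chartG e (e x) Y Y - η) ≤ ∑ k, u (f (pt z₀ w r k))

theorem discW_base {u v : M → ℝ} {x : M} (hv : ContPsh E v) (hle : ∀ y, v y ≤ u y)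
    (hx : u x ≤ v x) : DiscW E u x 0 := by
  intro e _ _ Y f U z₀ hU hz hf hfx _
  obtain ⟨ρ, hρ, hρU⟩ := nhds_basis_closedBall.mem_iff.1 (hU.mem_nhds hz)
  have h1 : ∀ r : ℝ, ∃ w : ℂ, ‖w‖ = 1 ∧ (r ∈ Ioc 0 ρ →
      4 * v (f z₀) ≤ ∑ k : Fin 4, v (f (z₀ + r • (I ^ (k:ℕ) • (w • (1:ℂ)))))) := by
    intro r
    by_cases hr : r ∈ Ioc 0 ρ
    · have h2 : closedBall z₀ r ⊆ U := (closedBall_subset_closedBall hr.2).trans hρU
      have h3 : ContinuousOn f (closedBall z₀ r) := hf.continuousOn.mono h2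
      obtain ⟨w, hw, h4⟩ := exists_dir (u := fun z => v (f z)) hr.1
        (hv.1.comp_continuousOn (h3.mono sphere_subset_closedBall))
        (hv.2 f z₀ r hr.1 h3 (hf.mono (ball_subset_closedBall.trans h2)))
      exact ⟨w, hw, fun _ => h4⟩
    · exact ⟨1, norm_one, fun h => (hr h).elim⟩
  choose w hw h2 using h1
  refine ⟨w, hw, fun η hη => ?_⟩
  filter_upwards [Ioc_mem_nhdsGT hρ] with r hr
  have h3 := h2 r hr
  have h4 : ∑ k : Fin 4, v (f (pt z₀ w r k)) ≤ ∑ k : Fin 4, u (f (pt z₀ w r k)) :=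
    Finset.sum_le_sum fun k _ => hle _
  have h5 : 0 ≤ r ^ 2 * η := by positivity
  rw [hfx] at h3
  unfold pt at h4 ⊢
  linarith

theorem contPsh_of_discW {u : M → ℝ} (hu : Continuous u) (h : ∀ x, DiscW E u x 0) :
    ContPsh E u := by
  refine ⟨hu, fun f c r hr hf hf' => four_submean_rot (u := fun z => u (f z)) hr
    (hu.comp_continuousOn hf) fun z₀ hz₀ => ?_⟩
  have he : chartAt E (f z₀) ∈ maximalAtlas 𝓘(ℂ, E) 1 M := chart_mem_maximalAtlas _
  have hs := mem_chart_source E (f z₀)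
  obtain ⟨w, hw, h1⟩ := h (f z₀) _ he hs _ f _ z₀ isOpen_ball hz₀ hf' rfl
    fun w hw => harmW_disc_rot isOpen_ball hf' hz₀ he hs hw
  refine ⟨w, hw, fun η hη => (h1 η hη).mono fun t ht => ?_⟩
  linarith

variable [IsContMDiffRiemannianBundle 𝓘(ℝ, E) ∞ E (fun x : M => TangentSpace 𝓘(ℝ, E) x)]
  [IsRiemannianManifold 𝓘(ℝ, E) M]

theorem weakLevi_of_discW (hK : IsKahler E M) {u c : M → ℝ} (hu : Continuous u) {S : Set M}
    (h : ∀ x ∈ S, DiscW E u x (c x)) : WeakLevi E u c S := by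
  refine ⟨hu, fun e he W N hW hWt hWS hN hl f a r hr hf hf' hm => ?_⟩
  have hcont : ContinuousOn (fun z => u (f z) - N (e (f z))) (closedBall a r) := by
    have h1 : ContinuousOn (fun z => e (f z)) (closedBall a r) :=
      e.continuousOn.comp hf (fun z hz => (hm z hz).1)
    exact (hu.comp_continuousOn hf).sub (hN.continuousOn.comp h1 fun z hz => (hm z hz).2)
  refine four_submean_rot (u := fun z => u (f z) - N (e (f z))) hr hcont fun z₀ hz₀ => ?_
  obtain ⟨hfs, hfW⟩ := hm z₀ (ball_subset_closedBall hz₀)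
  have hS : f z₀ ∈ S := by
    have h3 := hWS _ hfW
    rwa [e.left_inv hfs] at h3
  have hH := fun w hw => harmW_disc_rot (w := w) isOpen_ball hf' hz₀ he hfs hw
  obtain ⟨Y, hY⟩ : ∃ Y, Y = fderiv ℝ (fun z => e (f z)) z₀ 1 := ⟨_, rfl⟩
  rw [← hY] at hH
  obtain ⟨w, hw, h5⟩ := h (f z₀) hS e he hfs Y f _ z₀ isOpen_ball hz₀ hf' rfl hH
  refine ⟨w, hw, fun η hη => ?_⟩
  have h3 := (four_taylor_rot hW hN hfW (Y := fun r => w r • Y) (B := ‖Y‖)
    (fun r => by rw [norm_smul, hw, one_mul]) (hH w hw).2).def (half_pos hη)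
  filter_upwards [h5 (η / 2) (half_pos hη), h3] with t ht1 ht2
  rw [Real.norm_of_nonneg (show 0 ≤ t ^ 2 by positivity)] at ht2
  have h4 := (abs_le.1 (by rwa [Real.norm_eq_abs] at ht2)).2
  simp only [add_sub_cancel] at h4
  have h7 := hl _ hfW (w t • Y)
  rw [← chartG_apply, e.left_inv hfs,
    G_smul_complex (localKahler_chartG hK he) (e.map_source hfs), hw, one_pow, one_mul] at h7
  unfold levi2 at h7
  have h8 := mul_le_mul_of_nonneg_left h7 (sq_nonneg t)
  rw [Finset.sum_sub_distrib]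
  linarith

theorem discW_step (hK : IsKahler E M) [ProperSpace M] {e : OpenPartialHomeomorph M E}
    (he : e ∈ maximalAtlas 𝓘(ℂ, E) 1 M) {x x' : M} {R : ℝ} (hR : closedBall x R ⊆ e.source)
    (hx'R : dist x x' < R) (hne : x ≠ x') {κ : ℝ} (hκ : 0 ≤ κ)
    (hcurv : ∀ y ∈ closedBall x R, ∀ X a,
      κ * chartG e (e y) X X * chartG e (e y) a a ≤ Rc (chartG e) (e y) X a)
    {u : M → ℝ} {L c : ℝ} (hL : 0 < L) (hlip : ∀ a b, u b ≤ u a + L * dist a b)
    (hx : u x ≤ u x' - L * dist x x') (h : DiscW E u x' c) :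
    DiscW E u x (c + L * κ * dist x x' / 2) := by
  intro e₀ he₀ hxe₀ Y₀ f U z₀ _ _ _ _ hH
  have hxs : x ∈ e.source := hR (mem_closedBall_self (dist_nonneg.trans hx'R.le))
  have hx's : x' ∈ e.source := hR (by rw [mem_closedBall']; exact hx'R.le)
  have hNeq := chartG_change he₀ he hxe₀ hxs Y₀ Y₀
  obtain ⟨Y', hY', H⟩ := segment_rot hK he hR hx'R hne hκ hcurv
    (fderiv ℝ (e ∘ e₀.symm) (e₀ x) Y₀)
  have hlc : Continuous fun ζ : ℂ => e x' + ζ • Y' := by fun_prop
  have hg : MDifferentiableOn 𝓘(ℂ, ℂ) 𝓘(ℂ, E) (fun ζ : ℂ => e.symm (e x' + ζ • Y'))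
      ((fun ζ : ℂ => e x' + ζ • Y') ⁻¹' e.target) := by
    intro ζ hζ
    have h1 : MDifferentiableAt 𝓘(ℂ, E) 𝓘(ℂ, E) e.symm (e x' + ζ • Y') :=
      ((contMDiffOn_symm_of_mem_maximalAtlas he).contMDiffAt
        (e.open_target.mem_nhds hζ)).mdifferentiableAt (by simp)
    have h2 : DifferentiableAt ℂ (fun ζ : ℂ => e x' + ζ • Y') ζ := by fun_prop
    exact (h1.comp ζ h2.mdifferentiableAt).mdifferentiableWithinAt
  have hH' : ∀ w : ℝ → ℂ, (∀ r, ‖w r‖ = 1) →
      HarmW e x' Y' w (fun r k => e.symm (e x' + pt 0 w r k • Y')) := by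
    intro w hw
    have h1 : (fun r k => e.symm (e x' + pt 0 w r k • Y')) =
        fun (r : ℝ) (k : Fin 4) => e.symm (e x' + r • (I ^ (k:ℕ) • (w r • Y'))) := by
      funext r k
      rw [pt, zero_add, smul_assoc, smul_assoc, smul_assoc, one_smul]
    rw [h1]
    exact exists_harmW hx's Y' hw
  obtain ⟨w, hw, h1⟩ := h e he hx's Y' (fun ζ : ℂ => e.symm (e x' + ζ • Y')) _ 0
    (e.open_target.preimage hlc) (by simpa using e.map_source hx's) hg
    (by simpa using e.left_inv hx's) hH'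
  refine ⟨w, hw, fun η hη => ?_⟩
  filter_upwards [h1 (η / 2) (half_pos hη), H w hw _ _ ((hH w hw).change he₀ he hxe₀ hxs hw)
    (hH' w hw) (η / 2 / L) (by positivity)] with r hr1 hr2
  rw [hY'] at hr1
  rw [hNeq] at hr1 hr2
  have h2 : ∑ k, u (e.symm (e x' + pt 0 w r k • Y')) ≤ ∑ k, u (f (pt z₀ w r k)) +
      L * ∑ k, dist (f (pt z₀ w r k)) (e.symm (e x' + pt 0 w r k • Y')) := by
    rw [Finset.mul_sum, ← Finset.sum_add_distrib]
    exact Finset.sum_le_sum fun k _ => hlip _ _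
  have h3 := mul_le_mul_of_nonneg_left hr2 hL.le
  have h4 : L * (η / 2 / L) = η / 2 := by field_simp
  have h5 : L * (4 * dist x x' + r ^ 2 * (η / 2 / L - 2 * κ * chartG e₀ (e₀ x) Y₀ Y₀ * dist x x')) =
      4 * (L * dist x x') + r ^ 2 * (L * (η / 2 / L)) -
        r ^ 2 * (2 * L * κ * dist x x' * chartG e₀ (e₀ x) Y₀ Y₀) := by ring
  rw [h5, h4] at h3
  linarith

/-- transport along a minimal chain -/
theorem discW_chain (hK : IsKahler E M) [ProperSpace M]
    (hnn : ∀ e ∈ maximalAtlas 𝓘(ℂ, E) 1 M, ∀ y ∈ e.source, ∀ X a, 0 ≤ Rc (chartG e) (e y) X a)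
    {u v : M → ℝ} {L : ℝ} (hv : ContPsh E v) (hle : ∀ y, v y ≤ u y) (hL : 0 < L)
    (hlip : ∀ a b, u b ≤ u a + L * dist a b) {x y : M} (hx : u x ≤ v y - L * dist x y) :
    DiscW E u x 0 := by
  obtain ⟨δ, hδ, hleb⟩ := lebesgue_number_lemma_of_metric (s := closedBall y (dist x y))
    (c := fun y : M => (chartAt E y).source) (isCompact_closedBall _ _)
    (fun y => (chartAt E y).open_source)
    (fun y _ => mem_iUnion.2 ⟨y, mem_chart_source E y⟩)
  have hbase : ∀ z : M, dist z y ≤ 0 → u z ≤ v y - L * dist z y → DiscW E u z 0 := by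
    intro z h1 h2
    obtain rfl := dist_le_zero.1 h1
    exact discW_base hv hle (by simpa using h2)
  have hmain : ∀ n : ℕ, ∀ z : M, dist z y ≤ dist x y → dist z y ≤ n * (δ / 4) →
      u z ≤ v y - L * dist z y → DiscW E u z 0 := by
    intro n
    induction n with
    | zero => exact fun z _ h1 h2 => hbase z (by simpa using h1) h2
    | succ n ih =>
      intro z h1 h2 h3
      by_cases h0 : dist z y ≤ 0
      · exact hbase z h0 h3
      obtain ⟨i, hi⟩ := hleb z h1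
      have hR : closedBall z (δ / 2) ⊆ (chartAt E i).source :=
        (closedBall_subset_ball (by linarith only [hδ])).trans hi
      have hs : 0 < min (δ / 4) (dist z y) := lt_min (by positivity) (not_le.1 h0)
      obtain ⟨z', h4, h5⟩ := exists_mid (approxMid_of_riemannian E M) z y _ hs.le
        (min_le_right _ _)
      have h6 : dist z y = dist z z' + dist z' y := by rw [h4, h5]; ring
      have h7 := ih z' (by linarith only [h1, h5, hs]) (by
        rw [h5]
        rcases min_choice (δ / 4) (dist z y) with h8 | h8 <;> rw [h8]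
        · push_cast at h2
          linarith only [h2]
        · rw [sub_self]
          positivity) (by
        have h8 := hlip z z'
        rw [h6] at h3
        linarith only [h8, h3])
      have h8 := discW_step hK (chart_mem_maximalAtlas i) hR
        (by rw [h4]; linarith only [hδ, min_le_left (δ / 4) (dist z y)])
        (by rw [← dist_pos, h4]; exact hs) le_rfl
        (fun w hw X a => by simpa using hnn _ (chart_mem_maximalAtlas i) w (hR hw) X a) hL hlip
        (by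
          have h9 := hlip z' y
          rw [h6] at h3
          linarith only [h9, h3, hle y]) h7
      simpa using h8
  obtain ⟨n, hn⟩ := exists_nat_gt (dist x y / (δ / 4))
  refine hmain n x le_rfl ?_ hx
  rw [div_lt_iff₀ (by positivity)] at hn
  exact hn.le

/-- a uniform step length and curvature bound on a compact set -/
theorem exists_unif (hK : IsKahler E M) (hpos : ∀ x : M, PosBisectionalAt E x) {K : Set M}
    (hKc : IsCompact K) : ∃ ρ : ℝ, 0 < ρ ∧ ρ ≤ 1 ∧ ∃ κ : ℝ, 0 < κ ∧ ∀ x ∈ K,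
      ∃ e ∈ maximalAtlas 𝓘(ℂ, E) 1 M, closedBall x (2 * ρ) ⊆ e.source ∧
        ∀ y ∈ closedBall x (2 * ρ), ∀ X a,
          κ * chartG e (e y) X X * chartG e (e y) a a ≤ Rc (chartG e) (e y) X a := by
  have hmono : ∀ {ρ ρ' κ κ' : ℝ} {x : M}, ρ' ≤ ρ → κ' ≤ κ →
      (∃ e ∈ maximalAtlas 𝓘(ℂ, E) 1 M, closedBall x (2 * ρ) ⊆ e.source ∧
        ∀ y ∈ closedBall x (2 * ρ), ∀ X a,
          κ * chartG e (e y) X X * chartG e (e y) a a ≤ Rc (chartG e) (e y) X a) →
      ∃ e ∈ maximalAtlas 𝓘(ℂ, E) 1 M, closedBall x (2 * ρ') ⊆ e.source ∧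
        ∀ y ∈ closedBall x (2 * ρ'), ∀ X a,
          κ' * chartG e (e y) X X * chartG e (e y) a a ≤ Rc (chartG e) (e y) X a := by
    rintro ρ ρ' κ κ' x h1 h2 ⟨e, he, h3, h4⟩
    have h5 : closedBall x (2 * ρ') ⊆ closedBall x (2 * ρ) :=
      closedBall_subset_closedBall (by linarith only [h1])
    refine ⟨e, he, h5.trans h3, fun y hy X a => le_trans ?_ (h4 y (h5 hy) X a)⟩
    have h6 := fun v => G_nonneg (localKahler_chartG hK he) (e.map_source (h3 (h5 hy))) v
    exact mul_le_mul_of_nonneg_right (mul_le_mul_of_nonneg_right h2 (h6 X)) (h6 a)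
  refine hKc.induction_on (p := fun K => ∃ ρ : ℝ, 0 < ρ ∧ ρ ≤ 1 ∧ ∃ κ : ℝ, 0 < κ ∧ ∀ x ∈ K,
      ∃ e ∈ maximalAtlas 𝓘(ℂ, E) 1 M, closedBall x (2 * ρ) ⊆ e.source ∧
        ∀ y ∈ closedBall x (2 * ρ), ∀ X a,
          κ * chartG e (e y) X X * chartG e (e y) a a ≤ Rc (chartG e) (e y) X a) ?_ ?_ ?_ ?_
  · exact ⟨1, one_pos, le_rfl, 1, one_pos, fun x hx => hx.elim⟩
  · rintro s t hst ⟨ρ, h1, h2, κ, h3, h4⟩
    exact ⟨ρ, h1, h2, κ, h3, fun x hx => h4 x (hst hx)⟩
  · rintro s t ⟨ρ, h1, h2, κ, h3, h4⟩ ⟨ρ', h1', -, κ', h3', h4'⟩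
    refine ⟨min ρ ρ', lt_min h1 h1', (min_le_left _ _).trans h2, min κ κ', lt_min h3 h3', ?_⟩
    rintro x (hx | hx)
    · exact hmono (min_le_left _ _) (min_le_left _ _) (h4 x hx)
    · exact hmono (min_le_right _ _) (min_le_right _ _) (h4' x hx)
  · intro p _
    have hpe := mem_chart_source E p
    have he : chartAt E p ∈ maximalAtlas 𝓘(ℂ, E) 1 M := chart_mem_maximalAtlas p
    set e := chartAt E p with hedef
    have hpt : e p ∈ e.target := e.map_source hpe
    obtain ⟨κ, hκ, δ, hδ, -, hcurv⟩ := (localKahler_chartG hK he).exists_kappa hpt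
      (fun X a hX ha => Rc_pos_chartG hK he hpt (hpos _) X a hX ha)
    have hnhds : e.source ∩ e ⁻¹' (closedBall (e p) δ) ∈ 𝓝 p :=
      inter_mem (e.open_source.mem_nhds hpe)
        ((e.continuousAt hpe).preimage_mem_nhds (closedBall_mem_nhds _ hδ))
    obtain ⟨ρ, hρ, hρball⟩ := Metric.mem_nhds_iff.1 hnhds
    refine ⟨ball p (ρ / 4), mem_nhdsWithin_of_mem_nhds (ball_mem_nhds p (by positivity)),
      min (ρ / 4) 1, by positivity, min_le_right _ _, κ, hκ, fun x hx => ?_⟩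
    refine hmono (min_le_left _ _) le_rfl ?_
    have hR : closedBall x (2 * (ρ / 4)) ⊆ e.source ∩ e ⁻¹' (closedBall (e p) δ) := by
      refine Subset.trans (fun y hy => ?_) hρball
      have h1 : dist y x ≤ 2 * (ρ / 4) := hy
      have h2 : dist x p < ρ / 4 := hx
      have := dist_triangle y x p
      rw [mem_ball]
      linarith
    exact ⟨e, he, fun y hy => (hR hy).1, fun y hy X a => hcurv (e y) (hR hy).2 X a⟩

end Vale.Agent.P253Z.Sup
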