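import Vale.Agent.P253.R2.H618.Sq2

/-! P253Z, block SUP: the second variation inequality with a rotating direction. -/

open scoped Manifold ContDiff Topology Bundle
open Set Metric Complex Filter Bundle IsManifold

set_option maxSynthPendingDepth 3
set_option linter.unusedSectionVars false

noncomputable section

namespace Vale.Agent.P253Z.Sup

open Vale.Agent.P253.Mfd Vale.Agent.P253.Mfd.LocalKahler Vale.Agent.P253.R2.H618

section loc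

variable {E : Type*} [NormedAddCommGroup E] [NormedSpace ℂ E] [FiniteDimensional ℂ E]
  {G : E → E →L[ℝ] E →L[ℝ] ℝ} {U : Set E}

theorem unit_bound (h : LocalKahler G U) {z : E} (hz : z ∈ U) {m ε : ℝ} (hm : 0 < m) (hε : 0 < ε)
    (hlow : ∀ v, m * ‖v‖ ^ 2 ≤ G z v v) (u : E) : ‖(√(G z u u) + ε)⁻¹ • u‖ ≤ √(1 / m) := by
  apply Real.le_sqrt_of_sq_le
  rw [le_div_iff₀ hm, mul_comm]
  have hg0 : 0 ≤ G z u u := by
    by_cases h0 : u = 0
    · simp [h0]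
    · exact (h.pos _ hz _ h0).le
  set lam := √(G z u u) + ε with hlam
  have hlam0 : 0 < lam := by
    have := Real.sqrt_nonneg (G z u u)
    linarith
  refine (hlow _).trans ?_
  rw [map_smul, map_smul, smul_apply, smul_eq_mul, smul_eq_mul, ← mul_assoc]
  have hg : G z u u ≤ lam ^ 2 := by
    have h1 := Real.sq_sqrt hg0
    have h2 : √(G z u u) ≤ lam := by linarith only [hε]
    calc _ = √(G z u u) ^ 2 := h1.symm
      _ ≤ lam ^ 2 := by gcongr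
  calc _ ≤ lam⁻¹ * lam⁻¹ * lam ^ 2 := by gcongr
    _ = 1 := by field_simp

/-- one curve, one scale, one direction -/
theorem var_one (h : LocalKahler G U) {K : Set E} (hKU : K ⊆ U) {κ : ℝ} (hκ : 0 ≤ κ)
    (hcurv : ∀ z ∈ K, ∀ X a, κ * G z X X * G z a a ≤ Rc G z X a)
    {d : E → E → ℝ}
    (hd : ∀ c c' : ℝ → E, (∀ t ∈ Icc (0:ℝ) 1, HasDerivWithinAt c (c' t) (Icc 0 1) t) →
      ContinuousOn c' (Icc 0 1) → (∀ t ∈ Icc (0:ℝ) 1, c t ∈ U) →
      d (c 0) (c 1) ≤ ∫ t in (0:ℝ)..1, √(G (c t) (c' t) (c' t)))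
    {c c' EE : ℝ → E} (hc : ∀ t ∈ Icc (0:ℝ) 1, HasDerivWithinAt c (c' t) (Icc 0 1) t)
    (hc' : ContinuousOn c' (Icc 0 1)) (hcK : ∀ t ∈ Icc (0:ℝ) 1, c t ∈ K)
    (hE : ∀ t ∈ Icc (0:ℝ) 1, HasDerivWithinAt EE (-(chris G (c t) (c' t) (EE t))) (Icc 0 1) t)
    {N ε S r η C τ τ' m CΓ R D B : ℝ}
    (hN : ∀ t ∈ Icc (0:ℝ) 1, G (c t) (EE t) (EE t) = N) (hε : 0 < ε)
    (hS : S = ∫ t in (0:ℝ)..1, (√(G (c t) (c' t) (c' t)) + ε)) (hr : 0 < r)
    (hpw : PW G U K C τ η r) (hm : 0 < m) (hlow : ∀ z ∈ K, ∀ v, m * ‖v‖ ^ 2 ≤ G z v v)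
    (hCΓ0 : 0 ≤ CΓ) (hCΓ : ∀ z ∈ K, ∀ u v, ‖chris G z u v‖ ≤ CΓ * ‖u‖ * ‖v‖)
    (hR : ∀ t ∈ Icc (0:ℝ) 1, ‖EE t‖ ≤ R) (hD : 0 < D) (hDS : D ≤ S)
    (hC1 : √(1 / m) ≤ C) (hC2 : R ≤ C) (hC3 : CΓ * √(1 / m) * R ≤ C) (hC4 : B ≤ C)
    (hC5 : 2 * B / D ≤ C) (hτ1 : τ' ≤ τ) (hτ2 : τ' ≤ τ * D / 2)
    {w : ℂ} (hw : ‖w‖ = 1) {ξ₀ ξ₁ : Fin 4 → E} (hξ₀ : ∀ k, ‖ξ₀ k‖ ≤ B * r ^ 2)
    (hξ₁ : ∀ k, ‖ξ₁ k‖ ≤ B * r ^ 2) (hS₀ : ‖∑ k, ξ₀ k‖ ≤ τ' * r ^ 2)
    (hS₁ : ‖∑ k, ξ₁ k‖ ≤ τ' * r ^ 2) :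
    ∑ k : Fin 4, d (c 0 + (r • (I ^ (k:ℕ) • (w • EE 0)) + ξ₀ k))
        (c 1 + (r • (I ^ (k:ℕ) • (w • EE 1)) + ξ₁ k))
      ≤ S * (4 + η * r ^ 2 / 2 - 2 * r ^ 2 * κ * N) + 4 * ε * r ^ 2 * κ * N := by
  have hS0 : 0 < S := hD.trans_le hDS
  have hinvS : 1 / S ≤ 1 / D := one_div_le_one_div_of_le hD hDS
  have hinvS0 : 0 < 1 / S := by positivity
  have hr2 : 0 ≤ r ^ 2 := by positivity
  have hB0 : 0 ≤ B * r ^ 2 := (norm_nonneg _).trans (hξ₀ 0)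
  have hbb : ∀ t ∈ Icc (0:ℝ) 1, ‖(√(G (c t) (c' t) (c' t)) + ε)⁻¹ • c' t‖ ≤ √(1 / m) :=
    fun t ht => unit_bound h (hKU (hcK t ht)) hm hε (hlow _ (hcK t ht)) _
  have hfE : ∀ t ∈ Icc (0:ℝ) 1, ∀ f : ℝ, 0 ≤ f → f ≤ max 1 1 → ‖f • (w • EE t)‖ ≤ R := by
    intro t ht f hf0 hf1
    rw [max_self] at hf1
    rw [norm_smul, norm_smul, hw, one_mul, Real.norm_of_nonneg hf0]
    exact (mul_le_of_le_one_left (norm_nonneg _) hf1).trans (hR t ht)
  have hEw : ∀ t ∈ Icc (0:ℝ) 1, HasDerivWithinAt (fun t => w • EE t)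
      (-(chris G (c t) (c' t) (w • EE t))) (Icc 0 1) t := by
    intro t ht
    have h1 := (hE t ht).const_smul w
    rw [smul_neg, ← chris_smul_complex h (hKU (hcK t ht))] at h1
    exact h1
  have hNw : ∀ t ∈ Icc (0:ℝ) 1, G (c t) (w • EE t) (w • EE t) = N := by
    intro t ht
    rw [G_smul_complex h (hKU (hcK t ht)), hw, hN t ht]
    ring
  have hv := h.variation hKU hκ hcurv hd hc hc' hcK hEw (N := N) (ε := ε) (S := S) (φ₀ := 1)
    (φ₁ := 1) (r := r) (η := η) (C := C) (τ := τ) hNw hε hS zero_le_one zero_le_one hr hpw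
    (fun t ht => (hbb t ht).trans hC1) (fun t ht f hf0 hf1 => (hfE t ht f hf0 hf1).trans hC2)
    (fun t ht f hf0 hf1 => by
      rw [sub_self, zero_div, zero_smul, zero_sub, norm_neg]
      refine (hCΓ _ (hcK t ht) _ _).trans (le_trans ?_ hC3)
      have q1 := hbb t ht
      have q2 := hfE t ht f hf0 hf1
      gcongr)
    (ξ₀ := ξ₀) (ξ₁ := ξ₁)
    (fun k => (hξ₀ k).trans (mul_le_mul_of_nonneg_right hC4 hr2))
    (fun k => (hξ₁ k).trans (mul_le_mul_of_nonneg_right hC4 hr2))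
    (fun k => by
      rw [norm_smul, Real.norm_of_nonneg hinvS0.le]
      calc _ ≤ 1 / D * (B * r ^ 2 + B * r ^ 2) := by
            gcongr
            exact (norm_sub_le _ _).trans (add_le_add (hξ₁ k) (hξ₀ k))
        _ = 2 * B / D * r ^ 2 := by ring
        _ ≤ C * r ^ 2 := mul_le_mul_of_nonneg_right hC5 hr2)
    (hS₀.trans (mul_le_mul_of_nonneg_right hτ1 hr2))
    (hS₁.trans (mul_le_mul_of_nonneg_right hτ1 hr2))
    (by
      rw [← Finset.smul_sum, Finset.sum_sub_distrib, norm_smul, Real.norm_of_nonneg hinvS0.le]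
      calc _ ≤ 1 / D * (τ' * r ^ 2 + τ' * r ^ 2) := by
            gcongr
            exact (norm_sub_le _ _).trans (add_le_add hS₁ hS₀)
        _ ≤ 1 / D * (τ * D / 2 * r ^ 2 + τ * D / 2 * r ^ 2) := by gcongr
        _ = τ * r ^ 2 := by field_simp; ring)
  simp only [mul_one, sub_self, zero_div, min_self, one_pow] at hv
  refine hv.trans (le_of_eq ?_)
  ring

/-- parallel transport -/
theorem exists_par (h : LocalKahler G U) {c c' : ℝ → E}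
    (hc : ∀ t ∈ Icc (0:ℝ) 1, HasDerivWithinAt c (c' t) (Icc 0 1) t)
    (hc' : ContinuousOn c' (Icc 0 1)) (hcU : ∀ t ∈ Icc (0:ℝ) 1, c t ∈ U) (Y : E) :
    ∃ EE : ℝ → E, EE 0 = Y ∧ (∀ t ∈ Icc (0:ℝ) 1,
      HasDerivWithinAt EE (-(chris G (c t) (c' t) (EE t))) (Icc 0 1) t) ∧
      ∀ t ∈ Icc (0:ℝ) 1, G (c t) (EE t) (EE t) = G (c 0) Y Y := by
  have hcompl : CompleteSpace E := FiniteDimensional.complete ℂ E
  have hL : ContinuousOn (fun t => -(chris G (c t) (c' t))) (Icc 0 1) := by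
    have hcc : ContinuousOn c (Icc 0 1) := fun t ht => (hc t ht).continuousWithinAt
    have : ContinuousOn (fun t => chris G (c t)) (Icc 0 1) :=
      h.contDiffOn_chris.continuousOn.comp hcc hcU
    exact (this.clm_apply hc').neg
  obtain ⟨y, hy0, hy⟩ := exists_linODE zero_le_one _ hL Y
  have hy' : ∀ t ∈ Icc (0:ℝ) 1,
      HasDerivWithinAt y (-(chris G (c t) (c' t) (y t))) (Icc 0 1) t :=
    fun t ht => by simpa using hy t ht
  exact ⟨y, hy0, hy', fun t ht => by rw [par_const h hc hcU hy' ht, hy0]⟩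

/-- the lengths of nearly minimising curves -/
theorem len_lim (h : LocalKahler G U) {c c' : ℝ → E}
    (hc : ∀ t ∈ Icc (0:ℝ) 1, HasDerivWithinAt c (c' t) (Icc 0 1) t)
    (hc' : ContinuousOn c' (Icc 0 1)) (hcU : ∀ t ∈ Icc (0:ℝ) 1, c t ∈ U) (ε : ℝ) :
    ∫ t in (0:ℝ)..1, (√(G (c t) (c' t) (c' t)) + ε) =
      (∫ t in (0:ℝ)..1, √(G (c t) (c' t) (c' t))) + ε := by
  have hcc : ContinuousOn c (Icc 0 1) := fun t ht => (hc t ht).continuousWithinAt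
  have h1 : ContinuousOn (fun t => G (c t)) (Icc 0 1) := h.smooth.continuousOn.comp hcc hcU
  have h2 : ContinuousOn (fun t => √(G (c t) (c' t) (c' t))) (Icc 0 1) :=
    ((h1.clm_apply hc').clm_apply hc').sqrt
  rw [intervalIntegral.integral_add (h2.intervalIntegrable_of_Icc zero_le_one)
    _root_.intervalIntegrable_const]
  simp

/-- Second variation inequality along nearly minimising curves, with a rotating direction. -/
theorem second_variation_rot (h : LocalKahler G U) {K : Set E} (hK : IsCompact K) (hKU : K ⊆ U)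
    {κ : ℝ} (hκ : 0 ≤ κ)
    (hcurv : ∀ z ∈ K, ∀ X a, κ * G z X X * G z a a ≤ Rc G z X a)
    {d : E → E → ℝ}
    (hd : ∀ c c' : ℝ → E, (∀ t ∈ Icc (0:ℝ) 1, HasDerivWithinAt c (c' t) (Icc 0 1) t) →
      ContinuousOn c' (Icc 0 1) → (∀ t ∈ Icc (0:ℝ) 1, c t ∈ U) →
      d (c 0) (c 1) ≤ ∫ t in (0:ℝ)..1, √(G (c t) (c' t) (c' t)))
    {x x' : E} {D : ℝ} (hD : 0 < D) (hDd : D ≤ d x x')
    (hcurves : ∀ ε > 0, ∃ c c' : ℝ → E,
      (∀ t ∈ Icc (0:ℝ) 1, HasDerivWithinAt c (c' t) (Icc 0 1) t) ∧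
      ContinuousOn c' (Icc 0 1) ∧ c 0 = x ∧ c 1 = x' ∧ (∀ t ∈ Icc (0:ℝ) 1, c t ∈ K) ∧
      ∫ t in (0:ℝ)..1, √(G (c t) (c' t) (c' t)) ≤ D + ε) (Y : E) :
    ∃ Y', G x' Y' Y' = G x Y Y ∧ ∀ w : ℝ → ℂ, (∀ r, ‖w r‖ = 1) →
      ∀ ξ ξ' : ℝ → Fin 4 → E, IsSmall ξ → IsSmall ξ' → ∀ η > 0, ∀ᶠ r in 𝓝[>] (0:ℝ),
      ∑ k : Fin 4, d (x + (r • (I ^ (k:ℕ) • (w r • Y)) + ξ r k))
        (x' + (r • (I ^ (k:ℕ) • (w r • Y')) + ξ' r k))
        ≤ 4 * D + r ^ 2 * (η - 2 * κ * G x Y Y * D) := by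
  have hprop : ProperSpace E := FiniteDimensional.proper ℂ E
  have h1m : (1:ℝ) ∈ Icc (0:ℝ) 1 := by simp
  obtain ⟨ε, hε, hεlim⟩ : ∃ ε : ℕ → ℝ, (∀ n, 0 < ε n) ∧ Tendsto ε atTop (𝓝 0) :=
    ⟨fun n => 1 / ((n:ℝ) + 1), fun n => by positivity, tendsto_one_div_add_atTop_nhds_zero_nat⟩
  choose c c' hc hc' hc0 hc1 hcK hlen using fun n : ℕ => hcurves (ε n) (hε n)
  obtain ⟨m, hm, hlow⟩ := h.exists_lower hK hKU
  obtain ⟨CΓ, hCΓ0, hCΓ⟩ : ∃ CΓ : ℝ, 0 ≤ CΓ ∧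
      ∀ z ∈ K, ∀ u v, ‖chris G z u v‖ ≤ CΓ * ‖u‖ * ‖v‖ := by
    obtain ⟨C₀, hC₀⟩ := hK.exists_bound_of_continuousOn (h.contDiffOn_chris.continuousOn.mono hKU)
    refine ⟨max C₀ 0, le_max_right _ _, fun z hz u v => ?_⟩
    calc _ ≤ ‖chris G z‖ * ‖u‖ * ‖v‖ := (chris G z).le_opNorm₂ u v
      _ ≤ _ := by
        gcongr
        exact (hC₀ z hz).trans (le_max_left _ _)
  obtain ⟨N, hNdef⟩ : ∃ N, N = G x Y Y := ⟨_, rfl⟩
  rw [← hNdef]
  choose EE hE0 hE hN using fun n =>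
    exists_par h (hc n) (hc' n) (fun t ht => hKU (hcK n t ht)) Y
  simp only [hc0, ← hNdef] at hN
  obtain ⟨R, hR0, hEbound⟩ : ∃ R : ℝ, 0 ≤ R ∧ ∀ n, ∀ t ∈ Icc (0:ℝ) 1, ‖EE n t‖ ≤ R := by
    refine ⟨√(N / m), Real.sqrt_nonneg _, fun n t ht => ?_⟩
    apply Real.le_sqrt_of_sq_le
    rw [le_div_iff₀ hm, mul_comm, ← hN n t ht]
    exact hlow _ (hcK n t ht) _
  obtain ⟨Y', -, φ, hφ, hlim⟩ := (isCompact_closedBall (0:E) R).tendsto_subseq
    (x := fun n => EE n 1) (fun n => by simpa using hEbound n 1 h1m)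
  have hGY' : G x' Y' Y' = N := by
    have h1 : Tendsto (fun n => G x' (EE (φ n) 1) (EE (φ n) 1)) atTop (𝓝 (G x' Y' Y')) := by
      have hcont : Continuous (fun v => G x' v v) := by fun_prop
      exact (hcont.tendsto Y').comp hlim
    have h2 : (fun n => G x' (EE (φ n) 1) (EE (φ n) 1)) = fun _ => N := by
      funext n
      have := hN (φ n) 1 h1m
      rwa [hc1] at this
    rw [h2] at h1
    exact (tendsto_nhds_unique h1 tendsto_const_nhds)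
  refine ⟨Y', hGY', ?_⟩
  intro w hw ξ ξ' ⟨⟨Cξ, hCξ⟩, hξs⟩ ⟨⟨Cξ', hCξ'⟩, hξ's⟩ η hη
  obtain ⟨S, hSdef⟩ : ∃ S : ℕ → ℝ, ∀ n,
    S n = ∫ t in (0:ℝ)..1, (√(G (c n t) (c' n t) (c' n t)) + ε n) := ⟨_, fun _ => rfl⟩
  have hSeq : ∀ n, S n = (∫ t in (0:ℝ)..1, √(G (c n t) (c' n t) (c' n t))) + ε n := fun n => by
    rw [hSdef, len_lim h (hc n) (hc' n) (fun t ht => hKU (hcK n t ht))]
  have hSlow : ∀ n, D + ε n ≤ S n := by
    intro n
    have := hd (c n) (c' n) (hc n) (hc' n) (fun t ht => hKU (hcK n t ht))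
    rw [hc0, hc1] at this
    rw [hSeq]
    linarith only [hDd, this]
  have hSup : ∀ n, S n ≤ D + 2 * ε n := by
    intro n
    rw [hSeq]
    linarith only [hlen n]
  have hSlim : Tendsto S atTop (𝓝 D) := by
    refine tendsto_of_tendsto_of_tendsto_of_le_of_le (g := fun n => D + ε n)
      (h := fun n => D + 2 * ε n) ?_ ?_ hSlow hSup
    · simpa using (tendsto_const_nhds (x := D)).add hεlim
    · simpa using (tendsto_const_nhds (x := D)).add (hεlim.const_mul 2)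
  obtain ⟨B, hB0, hB1, hB2⟩ : ∃ B : ℝ, 0 ≤ B ∧ Cξ ≤ B ∧ Cξ' + 1 ≤ B :=
    ⟨|Cξ| + |Cξ'| + 1, by positivity, by linarith only [le_abs_self Cξ, abs_nonneg Cξ'],
      by linarith only [le_abs_self Cξ', abs_nonneg Cξ]⟩
  obtain ⟨C, hC0, hC1, hC2, hC3, hC4, hC5⟩ : ∃ C : ℝ, 1 ≤ C ∧ √(1 / m) ≤ C ∧ R ≤ C ∧
      CΓ * √(1 / m) * R ≤ C ∧ B ≤ C ∧ 2 * B / D ≤ C := by
    have t1 : 0 ≤ √(1 / m) := Real.sqrt_nonneg _
    have t2 : 0 ≤ CΓ * √(1 / m) * R := by positivity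
    have t3 : 0 ≤ 2 * B / D := by positivity
    refine ⟨1 + √(1 / m) + R + CΓ * √(1 / m) * R + B + 2 * B / D, ?_, ?_, ?_, ?_, ?_, ?_⟩ <;>
      linarith only [t1, t2, t3, hR0, hB0]
  obtain ⟨r₀, hr₀, τ, hτ, hpw⟩ := h.pointwise hK hKU (C := C) hC0 (η := 2 * η / D) (by positivity)
  have hτ'0 : 0 < min τ (τ * D / 2) := by positivity
  filter_upwards [hCξ, hCξ', hξs _ hτ'0, hξ's _ hτ'0, Ioc_mem_nhdsGT hr₀] with r hr1 hr2 hr3 hr4 hr5
  obtain ⟨hr, hrr⟩ := hr5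
  have hr2' : 0 ≤ r ^ 2 := by positivity
  have hev : ∀ᶠ n in atTop, ‖Y' - EE (φ n) 1‖ ≤ r := by
    have h1 : Tendsto (fun n => ‖Y' - EE (φ n) 1‖) atTop (𝓝 ‖Y' - Y'‖) :=
      (tendsto_const_nhds.sub hlim).norm
    rw [sub_self, norm_zero] at h1
    exact h1.eventually (ge_mem_nhds hr)
  have hkey : ∀ᶠ n in atTop, ∑ k : Fin 4, d (x + (r • (I ^ (k:ℕ) • (w r • Y)) + ξ r k))
        (x' + (r • (I ^ (k:ℕ) • (w r • Y')) + ξ' r k)) ≤
      S (φ n) * (4 + (2 * η / D) * r ^ 2 / 2 - 2 * r ^ 2 * κ * N)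
          + 4 * ε (φ n) * r ^ 2 * κ * N := by
    filter_upwards [hev] with n hn
    have hv := var_one h hKU hκ hcurv hd (hc (φ n)) (hc' (φ n)) (hcK (φ n)) (hE (φ n))
      (hN (φ n)) (hε (φ n)) (hSdef (φ n)) hr (hpw r hr hrr) hm hlow hCΓ0 hCΓ (hEbound (φ n)) hD
      (by linarith only [hSlow (φ n), hε (φ n)]) hC1 hC2 hC3 hC4 hC5 (min_le_left _ _)
      (min_le_right _ _) (hw r) (ξ₀ := ξ r)
      (ξ₁ := fun k => ξ' r k + r • (I ^ (k:ℕ) • (w r • (Y' - EE (φ n) 1))))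
      (fun k => (hr1 k).trans (mul_le_mul_of_nonneg_right hB1 hr2'))
      (fun k => by
        refine (norm_add_le _ _).trans (le_trans ?_ (mul_le_mul_of_nonneg_right hB2 hr2'))
        rw [norm_smul, norm_I_pow_smul, norm_smul, hw r, one_mul, Real.norm_of_nonneg hr.le,
          add_mul, one_mul, sq r]
        exact add_le_add (by rw [← sq]; exact hr2 k) (mul_le_mul_of_nonneg_left hn hr.le))
      hr3 (by
        rw [Finset.sum_add_distrib, ← Finset.smul_sum, sum_I_pow_smul, smul_zero, add_zero]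
        exact hr4)
    rw [hc0, hc1, hE0] at hv
    refine le_trans (le_of_eq ?_) hv
    apply Finset.sum_congr rfl
    intro k _
    congr 2
    simp only [smul_sub]
    abel
  have hS1 : Tendsto (fun n => S (φ n)) atTop (𝓝 D) := hSlim.comp hφ.tendsto_atTop
  have he1 : Tendsto (fun n => ε (φ n)) atTop (𝓝 0) := hεlim.comp hφ.tendsto_atTop
  have hlimit := (hS1.mul_const (4 + (2 * η / D) * r ^ 2 / 2 - 2 * r ^ 2 * κ * N)).add
    ((((he1.const_mul 4).mul_const (r ^ 2)).mul_const κ).mul_const N)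
  refine (ge_of_tendsto hlimit hkey).trans (le_of_eq ?_)
  field_simp
  ring

end loc

section seg

variable {E : Type*} [NormedAddCommGroup E] [NormedSpace ℂ E] [FiniteDimensional ℂ E]
  {M : Type*} [MetricSpace M] [ChartedSpace E M]
  [IsManifold 𝓘(ℂ, E) 1 M] [IsManifold 𝓘(ℝ, E) ∞ M]
  [RiemannianBundle (fun x : M => TangentSpace 𝓘(ℝ, E) x)]
  [IsContMDiffRiemannianBundle 𝓘(ℝ, E) ∞ E (fun x : M => TangentSpace 𝓘(ℝ, E) x)]
  [IsRiemannianManifold 𝓘(ℝ, E) M]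

/-- Second variation inequality along one segment contained in a chart, rotating direction. -/
theorem segment_rot (hK : IsKahler E M) [ProperSpace M] {e : OpenPartialHomeomorph M E}
    (he : e ∈ maximalAtlas 𝓘(ℂ, E) 1 M) {x x' : M} {R : ℝ} (hR : closedBall x R ⊆ e.source)
    (hx'R : dist x x' < R) (hne : x ≠ x') {κ : ℝ} (hκ : 0 ≤ κ)
    (hcurv : ∀ y ∈ closedBall x R, ∀ X a,
      κ * chartG e (e y) X X * chartG e (e y) a a ≤ Rc (chartG e) (e y) X a) (Y : E) :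
    ∃ Y' : E, chartG e (e x') Y' Y' = chartG e (e x) Y Y ∧ ∀ w : ℝ → ℂ, (∀ r, ‖w r‖ = 1) →
      ∀ a a' : ℝ → Fin 4 → M, HarmW e x Y w a → HarmW e x' Y' w a' →
      ∀ η > 0, ∀ᶠ r in 𝓝[>] (0:ℝ), ∑ k, dist (a r k) (a' r k) ≤ 4 * dist x x'
        + r ^ 2 * (η - 2 * κ * chartG e (e x) Y Y * dist x x') := by
  have her := mem_maximalAtlas_real he
  have hLK := localKahler_chartG hK he
  set K : Set E := e '' closedBall x R with hKdef
  have hKc : IsCompact K := (isCompact_closedBall x R).image_of_continuousOn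
    (e.continuousOn.mono hR)
  have hKt : K ⊆ e.target := by
    rintro _ ⟨y, hy, rfl⟩
    exact e.map_source (hR hy)
  have hcurv' : ∀ z ∈ K, ∀ X a, κ * chartG e z X X * chartG e z a a ≤ Rc (chartG e) z X a := by
    rintro _ ⟨y, hy, rfl⟩ X a
    exact hcurv y hy X a
  have hxs : x ∈ e.source := hR (mem_closedBall_self (dist_nonneg.trans hx'R.le))
  have hx's : x' ∈ e.source := hR (by rw [mem_closedBall']; exact hx'R.le)
  have hD : 0 < dist x x' := dist_pos.2 hne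
  obtain ⟨Y', hY', H⟩ := second_variation_rot hLK hKc hKt hκ hcurv'
    (d := fun z w => dist (e.symm z) (e.symm w))
    (fun c c' hc hc' hct => dist_le_chart her zero_le_one hc hc' hct)
    (x := e x) (x' := e x') hD (by rw [e.left_inv hxs, e.left_inv hx's])
    (by
      intro ε hε
      obtain ⟨c, c', h1, h2, h3, h4, h5, h6⟩ := exists_chart_curve her (x := x) (y := x')
        (r := R) (ε := min ε (R - dist x x')) (ball_subset_closedBall.trans hR)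
        (lt_min hε (by linarith only [hx'R])) (by linarith only [min_le_right ε (R - dist x x')])
      refine ⟨c, c', h1, h2, h3, h4, fun t ht => ?_, ?_⟩
      · obtain ⟨h7, h8⟩ := h5 t ht
        refine ⟨e.symm (c t), ?_, e.right_inv h7⟩
        rw [mem_closedBall']
        linarith only [h8, min_le_right ε (R - dist x x')]
      · linarith [min_le_left ε (R - dist x x')]) Y
  refine ⟨Y', hY', fun w hw a a' ha ha' η hη => ?_⟩
  have h1 := H w hw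
    (fun r k => e (a r k) - e x - r • (I ^ (k:ℕ) • (w r • Y)))
    (fun r k => e (a' r k) - e x' - r • (I ^ (k:ℕ) • (w r • Y'))) ha.2 ha'.2 η hη
  filter_upwards [h1, ha.1, ha'.1] with r hr hr1 hr2
  refine le_trans (le_of_eq ?_) hr
  apply Finset.sum_congr rfl
  intro k _
  have e1 : e x + (r • (I ^ (k:ℕ) • (w r • Y))
      + (e (a r k) - e x - r • (I ^ (k:ℕ) • (w r • Y)))) = e (a r k) := by abel
  have e2 : e x' + (r • (I ^ (k:ℕ) • (w r • Y'))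
      + (e (a' r k) - e x' - r • (I ^ (k:ℕ) • (w r • Y')))) = e (a' r k) := by abel
  simp only [e1, e2]
  rw [e.left_inv (hr1 k), e.left_inv (hr2 k)]

end seg

end Vale.Agent.P253Z.Sup
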